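import Mathlib
import Vale.Agent.Lib.P162.Defs

/-!
# P162, pool job D1: the `m`-step law of the free one-card chain `p ↦ 2 p` or `2 p + 1`
-/

namespace Vale.Agent.Lib.P162.H22

open Finset BigOperators

/-- One step of the free one-card chain, applied to a function. -/
theorem Wmat_sum (h : ℕ) [NeZero h] (p : ZMod (2 * h)) (f : ZMod (2 * h) → ℝ) :
    ∑ q, Wmat h p q * f q = (1 / 2) * f (2 * p) + (1 / 2) * f (2 * p + 1) := by
  unfold Wmat
  simp only [add_mul, Finset.sum_add_distrib, ite_mul, zero_mul, Finset.sum_ite_eq',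
    Finset.mem_univ, if_true]

/-- Splitting a count over `range (2 ^ (m + 1))` into the two halves. -/
theorem card_filter_range_double (N : ℕ) (P : ℕ → Prop) [DecidablePred P] :
    ((range (N + N)).filter P).card
      = ((range N).filter P).card + ((range N).filter (fun u => P (N + u))).card := by
  rw [Finset.card_filter, Finset.card_filter, Finset.card_filter, Finset.sum_range_add]

theorem Wmat_pow (h : ℕ) [NeZero h] (m : ℕ) (p y : ZMod (2 * h)) :
    (Wmat h ^ m) p y
      = (((range (2 ^ m)).filter
          (fun u : ℕ => (2 : ZMod (2 * h)) ^ m * p + (u : ZMod (2 * h)) = y)).card : ℝ) / 2 ^ m := by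
  induction m generalizing p with
  | zero =>
    have hf : ((range (2 ^ 0)).filter
        (fun u : ℕ => (2 : ZMod (2 * h)) ^ 0 * p + (u : ZMod (2 * h)) = y))
        = if p = y then {0} else ∅ := by
      have h1 : range (2 ^ 0) = {0} := by simp
      rw [h1, Finset.filter_singleton]
      simp
    rw [hf, pow_zero, Matrix.one_apply]
    by_cases hpy : p = y
    · simp [hpy]
    · simp [hpy]
  | succ m ih =>
    rw [pow_succ', Matrix.mul_apply, Wmat_sum, ih (2 * p), ih (2 * p + 1)]
    have h2 : (2 : ℕ) ^ (m + 1) = 2 ^ m + 2 ^ m := by ring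
    rw [h2, card_filter_range_double]
    have e1 : ((range (2 ^ m)).filter
        (fun u : ℕ => (2 : ZMod (2 * h)) ^ (m + 1) * p + (u : ZMod (2 * h)) = y))
        = (range (2 ^ m)).filter
          (fun u : ℕ => (2 : ZMod (2 * h)) ^ m * (2 * p) + (u : ZMod (2 * h)) = y) := by
      refine Finset.filter_congr fun u _ => ?_
      have : (2 : ZMod (2 * h)) ^ (m + 1) * p = (2 : ZMod (2 * h)) ^ m * (2 * p) := by ring
      rw [this]
    have e2 : ((range (2 ^ m)).filter
        (fun u : ℕ => (2 : ZMod (2 * h)) ^ (m + 1) * p + ((2 ^ m + u : ℕ) : ZMod (2 * h)) = y))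
        = (range (2 ^ m)).filter
          (fun u : ℕ => (2 : ZMod (2 * h)) ^ m * (2 * p + 1) + (u : ZMod (2 * h)) = y) := by
      refine Finset.filter_congr fun u _ => ?_
      have : (2 : ZMod (2 * h)) ^ (m + 1) * p + ((2 ^ m + u : ℕ) : ZMod (2 * h))
          = (2 : ZMod (2 * h)) ^ m * (2 * p + 1) + (u : ZMod (2 * h)) := by
        push_cast
        ring
      rw [this]
    rw [e1, e2]
    push_cast
    have hpos : (2 : ℝ) ^ m ≠ 0 := by positivity
    field_simp
    ring

end Vale.Agent.Lib.P162.H22
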