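import Mathlib
import Vale.Agent.Lib.P162.Defs
import Vale.Agent.Lib.P162.RDefs
import Vale.Agent.Lib.P162.helper95.KmatBasic
import Vale.Agent.Lib.P162.helper23.ProdTv
import Vale.Agent.Lib.P162.helper22.WmatPow

/-!
# P162, pool job R4: powers of the product kernel `Bmat` (new card free, old cards as a chain)
-/

namespace Vale.Agent.Lib.P162.H22

open Finset BigOperators

/-- The entries of the free one-card kernel are nonnegative. -/
theorem Wmat_entry_nonneg (h : ℕ) [NeZero h] (p q : ZMod (2 * h)) : 0 ≤ Wmat h p q := by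
  show 0 ≤ (if q = 2 * p then (1 / 2 : ℝ) else 0) + (if q = 2 * p + 1 then (1 / 2 : ℝ) else 0)
  split_ifs <;> norm_num

/-- The rows of the free one-card kernel sum to one. -/
theorem Wmat_row_sum (h : ℕ) [NeZero h] (p : ZMod (2 * h)) : ∑ q, Wmat h p q = 1 := by
  have h1 : ∑ q, Wmat h p q * (1 : ℝ) = 1 / 2 * 1 + 1 / 2 * 1 :=
    Wmat_sum h p (fun _ => (1 : ℝ))
  have h2 : ∑ q, Wmat h p q = ∑ q, Wmat h p q * (1 : ℝ) :=
    Finset.sum_congr rfl (fun q _ => (mul_one _).symm)
  rw [h2, h1]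
  norm_num

/-- Two tuples agree iff their heads and their tails agree. -/
theorem tuple_eq_iff {α : Type*} {j : ℕ} (z y : Fin (j + 1) → α) :
    z = y ↔ z 0 = y 0 ∧ Fin.tail z = Fin.tail y := by
  constructor
  · intro hzy
    rw [hzy]
    exact ⟨rfl, rfl⟩
  · rintro ⟨h0, ht⟩
    funext i
    refine Fin.cases h0 (fun i => ?_) i
    exact congrFun ht i

theorem Bmat_pow (h j : ℕ) [NeZero h] (m : ℕ) (z y : Fin (j + 1) → ZMod (2 * h)) :
    (Bmat h j ^ m) z y = (Wmat h ^ m) (z 0) (y 0) * (Kmat h j ^ m) (Fin.tail z) (Fin.tail y) := by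
  classical
  induction m generalizing y with
  | zero =>
    rw [pow_zero, pow_zero, pow_zero, Matrix.one_apply, Matrix.one_apply, Matrix.one_apply]
    by_cases hzy : z = y
    · have h0 : z 0 = y 0 := ((tuple_eq_iff z y).1 hzy).1
      have ht : Fin.tail z = Fin.tail y := ((tuple_eq_iff z y).1 hzy).2
      rw [if_pos hzy, if_pos h0, if_pos ht, one_mul]
    · rw [if_neg hzy]
      by_cases h0 : z 0 = y 0
      · have ht : Fin.tail z ≠ Fin.tail y := fun ht => hzy ((tuple_eq_iff z y).2 ⟨h0, ht⟩)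
        rw [if_neg ht, mul_zero]
      · rw [if_neg h0, zero_mul]
  | succ m ih =>
    rw [pow_succ, pow_succ, pow_succ, Matrix.mul_apply, Matrix.mul_apply, Matrix.mul_apply]
    rw [H23.sum_fin_succ_fun]
    rw [Finset.sum_mul_sum]
    refine Finset.sum_congr rfl (fun p _ => ?_)
    refine Finset.sum_congr rfl (fun w _ => ?_)
    rw [ih, Bmat_apply, Fin.cons_zero, Fin.tail_cons]
    ring

theorem Bmat_nonneg (h j : ℕ) [NeZero h] (z y : Fin (j + 1) → ZMod (2 * h)) :
    0 ≤ Bmat h j z y := by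
  rw [Bmat_apply, Kmat_apply_r]
  exact mul_nonneg (Wmat_entry_nonneg h _ _) (H95.stepProb_nonneg h j _ _)

theorem Bmat_sum (h j : ℕ) [NeZero h] (z : Fin (j + 1) → ZMod (2 * h)) :
    ∑ y, Bmat h j z y = 1 := by
  classical
  rw [H23.sum_fin_succ_fun]
  have e : ∀ (q : ZMod (2 * h)) (v : Fin j → ZMod (2 * h)),
      Bmat h j z (Fin.cons q v) = Wmat h (z 0) q * stepProb h j (Fin.tail z) v := by
    intro q v
    rw [Bmat_apply, Kmat_apply_r, Fin.cons_zero, Fin.tail_cons]
  calc ∑ q : ZMod (2 * h), ∑ v : Fin j → ZMod (2 * h), Bmat h j z (Fin.cons q v)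
      = ∑ q : ZMod (2 * h), ∑ v : Fin j → ZMod (2 * h),
          Wmat h (z 0) q * stepProb h j (Fin.tail z) v :=
        Finset.sum_congr rfl (fun q _ => Finset.sum_congr rfl (fun v _ => e q v))
    _ = (∑ q : ZMod (2 * h), Wmat h (z 0) q) *
          ∑ v : Fin j → ZMod (2 * h), stepProb h j (Fin.tail z) v :=
        (Finset.sum_mul_sum _ _ _ _).symm
    _ = 1 := by rw [Wmat_row_sum, H95.stepProb_sum, one_mul]

end Vale.Agent.Lib.P162.H22
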